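import Mathlib

/-!
# Polar integration around a point of the plane

`circ f c s` is the integral of `f` over the circle of radius `s` round `c` for arc length.
-/

namespace Vale.Agent.P128.Classify

open MeasureTheory Filter Set Metric Real
open scoped Topology

/-- The integral of `f` over the circle of radius `s` round `c`, with respect to arc length. -/
noncomputable def circ (f : ℂ → ℝ) (c : ℂ) (s : ℝ) : ℝ :=
  s * ∫ θ in -π..π, f (circleMap c s θ)

lemma circleMap_eq_add_polar (c : ℂ) (p : ℝ × ℝ) :
    circleMap c p.1 p.2 = c + Complex.polarCoord.symm p := by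
  simp [circleMap, Complex.exp_mul_I]

/-- The polar form of an integrable function. -/
lemma integrableOn_polar {f : ℂ → ℝ} (hf : Integrable f) (c : ℂ) :
    IntegrableOn (fun p : ℝ × ℝ => p.1 * f (circleMap c p.1 p.2)) (Ioi 0 ×ˢ Ioo (-π) π) := by
  have hg : Integrable fun q : ℝ × ℝ => f (c + Complex.measurableEquivRealProd.symm q) :=
    (Complex.volume_preserving_equiv_real_prod.symm).integrable_comp_emb
      Complex.measurableEquivRealProd.symm.measurableEmbedding |>.2 (hf.comp_add_left c)
  have h := (integrableOn_image_iff_integrableOn_abs_det_fderiv_smul volume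
      (measurableSet_Ioi.prod measurableSet_Ioo)
      (fun p _ => (hasFDerivAt_polarCoord_symm p).hasFDerivWithinAt)
      (polarCoord.symm.injOn : InjOn polarCoord.symm polarCoord.target)
      (fun q => f (c + Complex.measurableEquivRealProd.symm q))).1 hg.integrableOn
  refine h.congr_fun (fun p hp => ?_) (measurableSet_Ioi.prod measurableSet_Ioo)
  simp only [det_fderivPolarCoordSymm, smul_eq_mul, abs_of_pos (show (0 : ℝ) < p.1 from hp.1),
    Complex.measurableEquivRealProd_symm_polarCoord_symm_apply, circleMap_eq_add_polar]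

/-- Almost every circle sees an integrable function. -/
lemma ae_integrableOn_circle {f : ℂ → ℝ} (hf : Integrable f) (c : ℂ) :
    ∀ᵐ s ∂(volume.restrict (Ioi (0 : ℝ))),
      IntervalIntegrable (fun θ => f (circleMap c s θ)) volume (-π) π := by
  have h := integrableOn_polar hf c
  rw [IntegrableOn, Measure.volume_eq_prod, ← Measure.prod_restrict] at h
  filter_upwards [h.prod_right_ae, ae_restrict_mem measurableSet_Ioi] with s hs hs0
  rw [intervalIntegrable_iff_integrableOn_Ioo_of_le (by linarith [pi_pos])]
  have := hs.const_mul s⁻¹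
  refine this.congr (Eventually.of_forall fun θ => ?_)
  simp [← mul_assoc, inv_mul_cancel₀ (ne_of_gt (show (0 : ℝ) < s from hs0))]

lemma integrableOn_circ {f : ℂ → ℝ} (hf : Integrable f) (c : ℂ) :
    IntegrableOn (circ f c) (Ioi 0) := by
  have h := integrableOn_polar hf c
  rw [IntegrableOn, Measure.volume_eq_prod, ← Measure.prod_restrict] at h
  refine h.integral_prod_left.congr (Eventually.of_forall fun s => ?_)
  simp only [circ, intervalIntegral.integral_of_le (show -π ≤ π by linarith [pi_pos]),
    integral_Ioc_eq_integral_Ioo, integral_const_mul]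

/-- **Polar integration.** -/
theorem integral_eq_circ {f : ℂ → ℝ} (hf : Integrable f) (c : ℂ) :
    ∫ y, f y = ∫ s in Ioi 0, circ f c s := by
  have h := integrableOn_polar hf c
  rw [← integral_add_left_eq_self f c, ← Complex.integral_comp_polarCoord_symm]
  simp only [smul_eq_mul, ← circleMap_eq_add_polar]
  rw [IntegrableOn, Measure.volume_eq_prod] at h
  rw [polarCoord_target, Measure.volume_eq_prod, setIntegral_prod _ h]
  refine setIntegral_congr_fun measurableSet_Ioi fun s _ => ?_
  simp only [circ, intervalIntegral.integral_of_le (show -π ≤ π by linarith [pi_pos]),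
    integral_Ioc_eq_integral_Ioo, integral_const_mul]

/-- A radial factor comes out of the circle integrals. -/
lemma circ_radial_mul (h : ℝ → ℝ) (f : ℂ → ℝ) (c : ℂ) {s : ℝ} (hs : 0 ≤ s) :
    circ (fun y => h ‖y - c‖ * f y) c s = h s * circ f c s := by
  have e : ∀ θ, ‖circleMap c s θ - c‖ = s := fun θ => by
    simp [circleMap, abs_of_nonneg hs]
  simp only [circ, e, intervalIntegral.integral_const_mul]
  ring

/-- Radial weights. -/
theorem integral_radial_mul {h : ℝ → ℝ} {f : ℂ → ℝ} {c : ℂ}
    (hf : Integrable fun y => h ‖y - c‖ * f y) :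
    ∫ y, h ‖y - c‖ * f y = ∫ s in Ioi 0, h s * circ f c s := by
  rw [integral_eq_circ hf c]
  exact setIntegral_congr_fun measurableSet_Ioi fun s hs => circ_radial_mul h f c (le_of_lt hs)

lemma circ_indicator_ball (f : ℂ → ℝ) (c : ℂ) (r : ℝ) {s : ℝ} (hs : 0 < s) :
    circ ((ball c r).indicator f) c s = (Iio r).indicator (circ f c) s := by
  have e : ∀ θ, dist (circleMap c s θ) c = s := fun θ => by
    simp [dist_eq_norm, circleMap, abs_of_pos hs]
  by_cases h : s < r
  · simp [circ, indicator_of_mem, h, e]
  · simp [circ, h, e]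

lemma intervalIntegrable_circ {f : ℂ → ℝ} {c : ℂ} {r : ℝ} (hr : 0 ≤ r)
    (hf : IntegrableOn f (ball c r)) : IntervalIntegrable (circ f c) volume 0 r := by
  rw [intervalIntegrable_iff_integrableOn_Ioo_of_le hr]
  refine ((integrableOn_circ ((integrable_indicator_iff measurableSet_ball).2 hf) c).mono_set
    Ioo_subset_Ioi_self).congr_fun (fun s hs => ?_) measurableSet_Ioo
  rw [circ_indicator_ball f c r hs.1, indicator_of_mem (show s ∈ Iio r from hs.2)]

/-- The integral over a disk is the integral of the circle integrals. -/
theorem setIntegral_ball_eq_circ {f : ℂ → ℝ} {c : ℂ} {r : ℝ} (hr : 0 ≤ r)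
    (hf : IntegrableOn f (ball c r)) : ∫ y in ball c r, f y = ∫ s in 0..r, circ f c s := by
  rw [← integral_indicator measurableSet_ball,
    integral_eq_circ ((integrable_indicator_iff measurableSet_ball).2 hf) c,
    setIntegral_congr_fun measurableSet_Ioi fun s hs => circ_indicator_ball f c r hs,
    setIntegral_indicator measurableSet_Iio, Ioi_inter_Iio,
    intervalIntegral.integral_of_le hr, integral_Ioc_eq_integral_Ioo]

end Vale.Agent.P128.Classify
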