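import Mathlib

/-!
# The Wirtinger inequality for functions with rough zero set

`f` is continuous on `[a, b]`, vanishes at both ends, and is differentiable with derivative `g` at
the interior points where it does not vanish. No regularity is assumed at the zeros of `f`.
-/

namespace Vale.Agent.P128.Classify

open MeasureTheory Filter Set Real
open scoped Topology

/-- The square of the positive part is differentiable. -/
lemma hasDerivAt_max_sq (x : ℝ) : HasDerivAt (fun y : ℝ => max y 0 ^ 2) (2 * max x 0) x := by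
  rcases lt_trichotomy x 0 with hx | rfl | hx
  · have h : (fun y : ℝ => max y 0 ^ 2) =ᶠ[𝓝 x] fun _ => (0 : ℝ) := by
      filter_upwards [Iio_mem_nhds hx] with y hy
      simp [max_eq_right (mem_Iio.1 hy).le]
    rw [max_eq_right hx.le, mul_zero]
    exact (hasDerivAt_const x (0 : ℝ)).congr_of_eventuallyEq h
  · have hb : ∀ y : ℝ, |max y 0 ^ 2| ≤ y ^ 2 := fun y => by
      rcases le_total y 0 with hy | hy
      · simp [max_eq_right hy, sq_nonneg]
      · simp [max_eq_left hy]
    rw [hasDerivAt_iff_isLittleO]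
    simp only [max_self, mul_zero, sub_zero, ne_eq, OfNat.ofNat_ne_zero, not_false_eq_true,
      zero_pow, smul_zero]
    refine Asymptotics.IsLittleO.congr' ?_ EventuallyEq.rfl EventuallyEq.rfl
    exact (Asymptotics.IsBigO.of_bound 1 (Eventually.of_forall fun y => by
      simpa [Real.norm_eq_abs] using hb y)).trans_isLittleO
        (Asymptotics.isLittleO_pow_id one_lt_two)
  · have h : (fun y : ℝ => max y 0 ^ 2) =ᶠ[𝓝 x] fun y => y ^ 2 := by
      filter_upwards [Ioi_mem_nhds hx] with y hy
      simp [max_eq_left (mem_Ioi.1 hy).le]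
    rw [max_eq_left hx.le]
    exact ((hasDerivAt_pow 2 x).congr_of_eventuallyEq h).congr_deriv (by simp)

/-- One side of the truncation: zero up to `ε`, slope in `[0, 1]`. -/
noncomputable def ramp (ε t : ℝ) : ℝ :=
  (max (t - ε) 0 ^ 2 - max (t - 2 * ε) 0 ^ 2) / (2 * ε)

/-- The truncation of small values. -/
noncomputable def trunc (ε t : ℝ) : ℝ := ramp ε t - ramp ε (-t)

/-- The slope of `ramp`. -/
noncomputable def slope' (ε t : ℝ) : ℝ := (max (t - ε) 0 - max (t - 2 * ε) 0) / ε

lemma hasDerivAt_trunc (ε t : ℝ) :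
    HasDerivAt (trunc ε) (slope' ε t + slope' ε (-t)) t := by
  have h : ∀ s, HasDerivAt (ramp ε) (slope' ε s) s := fun s => by
    have h1 := (hasDerivAt_max_sq (s - ε)).comp s ((hasDerivAt_id s).sub_const ε)
    have h2 := (hasDerivAt_max_sq (s - 2 * ε)).comp s ((hasDerivAt_id s).sub_const (2 * ε))
    refine ((h1.sub h2).div_const (2 * ε)).congr_deriv ?_
    simp only [slope', mul_one, ← mul_sub]
    rw [mul_div_mul_left _ _ two_ne_zero]
  exact ((h t).sub ((h (-t)).comp t (hasDerivAt_neg t))).congr_deriv (by ring)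

lemma slope'_mem {ε : ℝ} (hε : 0 < ε) (t : ℝ) : 0 ≤ slope' ε t ∧ slope' ε t ≤ 1 := by
  constructor
  · exact div_nonneg (sub_nonneg.2 (max_le_max_right 0 (by linarith))) hε.le
  · rw [slope', div_le_one hε, sub_le_iff_le_add]
    exact max_le (by linarith [le_max_left (t - 2 * ε) 0]) (by positivity)

lemma slope'_eq_zero {ε t : ℝ} (hε : 0 ≤ ε) (ht : t ≤ ε) : slope' ε t = 0 := by
  simp [slope', max_eq_right (show t - ε ≤ 0 by linarith),
    max_eq_right (show t - 2 * ε ≤ 0 by linarith)]

lemma trunc_eq_zero {ε t : ℝ} (ht : |t| ≤ ε) : trunc ε t = 0 := by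
  obtain ⟨h1, h2⟩ := abs_le.1 ht
  simp [trunc, ramp, max_eq_right (show t - ε ≤ 0 by linarith),
    max_eq_right (show -t - ε ≤ 0 by linarith), max_eq_right (show t - 2 * ε ≤ 0 by linarith),
    max_eq_right (show -t - 2 * ε ≤ 0 by linarith)]

lemma abs_trunc_deriv_le {ε : ℝ} (hε : 0 < ε) (t : ℝ) :
    |slope' ε t + slope' ε (-t)| ≤ 1 := by
  obtain ⟨a, b⟩ := slope'_mem hε t
  obtain ⟨c, d⟩ := slope'_mem hε (-t)
  rcases le_total t 0 with h | h
  · rw [slope'_eq_zero hε.le (h.trans hε.le), zero_add, abs_of_nonneg c]; exact d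
  · rw [slope'_eq_zero hε.le (show -t ≤ ε by linarith), add_zero, abs_of_nonneg a]; exact b

lemma abs_trunc_le {ε : ℝ} (hε : 0 < ε) (t : ℝ) : |trunc ε t| ≤ |t| := by
  have h := convex_univ.norm_image_sub_le_of_norm_hasDerivWithin_le (C := 1)
    (fun s _ => (hasDerivAt_trunc ε s).hasDerivWithinAt)
    (fun s _ => abs_trunc_deriv_le hε s) (mem_univ 0) (mem_univ t)
  simpa [trunc_eq_zero (show |(0 : ℝ)| ≤ ε by simpa using hε.le)] using h

lemma abs_trunc_sub_le {ε : ℝ} (hε : 0 < ε) (t : ℝ) : |trunc ε t - t| ≤ 2 * ε := by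
  have hε' : ε ≠ 0 := hε.ne'
  have key : ∀ s, 0 ≤ s → |ramp ε s - s| ≤ 2 * ε ∧ ramp ε (-s) = 0 := fun s hs => by
    refine ⟨?_, by simp [ramp, max_eq_right (show -s - ε ≤ 0 by linarith),
      max_eq_right (show -s - 2 * ε ≤ 0 by linarith)]⟩
    rcases le_total s (2 * ε) with h | h
    · have h0 : 0 ≤ ramp ε s ∧ ramp ε s ≤ s := by
        simp only [ramp, max_eq_right (show s - 2 * ε ≤ 0 by linarith)]
        refine ⟨div_nonneg (by nlinarith [sq_nonneg (max (s - ε) 0)]) (by positivity), ?_⟩
        rw [div_le_iff₀ (by positivity)]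
        rcases le_total s ε with h' | h'
        · rw [max_eq_right (by linarith)]; nlinarith
        · rw [max_eq_left (by linarith)]
          nlinarith [mul_le_mul (show s - ε ≤ ε by linarith) (show s - ε ≤ s by linarith)
            (by linarith) hε.le]
      rw [abs_le]; constructor <;> linarith [h0.1, h0.2]
    · have e : ramp ε s = s - 3 / 2 * ε := by
        simp only [ramp, max_eq_left (show 0 ≤ s - 2 * ε by linarith),
          max_eq_left (show 0 ≤ s - ε by linarith)]
        field_simp
        ring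
      rw [e, abs_le]; constructor <;> linarith
  rcases le_total 0 t with h | h
  · obtain ⟨h1, h2⟩ := key t h
    simpa [trunc, h2] using h1
  · obtain ⟨h1, h2⟩ := key (-t) (by linarith)
    rw [neg_neg] at h2
    rw [trunc, h2, zero_sub, abs_sub_comm]
    simpa [sub_neg_eq_add, add_comm] using h1

/-- Wirtinger for a differentiable function vanishing near the ends (Picone's identity). -/
lemma wirtinger_core {F F' : ℝ → ℝ} {a b a' b' : ℝ} (ha : a < a') (hab : a' ≤ b') (hb : b' < b)
    (hd : ∀ x ∈ Icc a' b', HasDerivAt F (F' x) x) (ha0 : F a' = 0) (hb0 : F b' = 0)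
    (hi : IntegrableOn F' (Icc a' b')) (hi2 : IntegrableOn (fun x => F' x ^ 2) (Icc a' b')) :
    (π / (b - a)) ^ 2 * ∫ x in a'..b', F x ^ 2 ≤ ∫ x in a'..b', F' x ^ 2 := by
  set c := π / (b - a) with hc
  have hc0 : 0 < c := div_pos pi_pos (by linarith)
  have hs : ∀ x ∈ Icc a' b', 0 < sin (c * (x - a)) := by
    intro x hx
    refine sin_pos_of_pos_of_lt_pi (mul_pos hc0 (by linarith [hx.1])) ?_
    calc c * (x - a) < c * (b - a) := mul_lt_mul_of_pos_left (by linarith [hx.2]) hc0
      _ = π := div_mul_cancel₀ _ (by linarith)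
  set w : ℝ → ℝ := fun x => c * cos (c * (x - a)) / sin (c * (x - a)) with hw
  set w' : ℝ → ℝ := fun x => -c ^ 2 / sin (c * (x - a)) ^ 2 with hw'
  have hdw : ∀ x ∈ Icc a' b', HasDerivAt w (w' x) x := by
    intro x hx
    have hl : HasDerivAt (fun y => c * (y - a)) c x := by
      simpa using ((hasDerivAt_id x).sub_const a).const_mul c
    refine ((hl.cos.const_mul c).div hl.sin (hs x hx).ne').congr_deriv ?_
    rw [hw']
    congr 1
    linear_combination (-(c ^ 2)) * sin_sq_add_cos_sq (c * (x - a))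
  have hcw : ContinuousOn w (Icc a' b') := fun x hx => (hdw x hx).continuousAt.continuousWithinAt
  have hcw' : ContinuousOn w' (Icc a' b') :=
    continuousOn_const.div ((Continuous.continuousOn (by fun_prop))) fun x hx =>
      pow_ne_zero 2 (hs x hx).ne'
  have hcF : ContinuousOn F (Icc a' b') := fun x hx => (hd x hx).continuousAt.continuousWithinAt
  have hdΦ : ∀ x ∈ uIcc a' b',
      HasDerivAt (fun y => F y ^ 2 * w y) (2 * F x * w x * F' x + F x ^ 2 * w' x) x := by
    intro x hx
    rw [uIcc_of_le hab] at hx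
    exact (((hd x hx).pow 2).mul (hdw x hx)).congr_deriv (by simp; ring)
  have i1 : IntegrableOn (fun x => 2 * F x * w x * F' x) (Icc a' b') :=
    IntegrableOn.continuousOn_mul ((continuousOn_const.mul hcF).mul hcw) hi isCompact_Icc
  have i2 : IntegrableOn (fun x => F x ^ 2 * w' x) (Icc a' b') :=
    ((hcF.pow 2).mul hcw').integrableOn_compact isCompact_Icc
  have i3 : IntegrableOn (fun x => c ^ 2 * F x ^ 2) (Icc a' b') :=
    (continuousOn_const.mul (hcF.pow 2)).integrableOn_compact isCompact_Icc
  have hΦ : IntervalIntegrable (fun x => 2 * F x * w x * F' x + F x ^ 2 * w' x) volume a' b' :=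
    (intervalIntegrable_iff_integrableOn_Icc_of_le hab).2 (i1.add i2)
  have hzero : ∫ x in a'..b', (2 * F x * w x * F' x + F x ^ 2 * w' x) = 0 := by
    rw [intervalIntegral.integral_eq_sub_of_hasDerivAt hdΦ hΦ]
    simp [ha0, hb0]
  have h3 := (intervalIntegrable_iff_integrableOn_Icc_of_le hab).2 i3
  have hmono := intervalIntegral.integral_mono_on hab (hΦ.add h3)
    ((intervalIntegrable_iff_integrableOn_Icc_of_le hab).2 hi2) fun x hx => by
      have e : w x ^ 2 + w' x = -c ^ 2 := by
        simp only [hw, hw']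
        rw [div_pow, ← add_div, div_eq_iff (pow_ne_zero 2 (hs x hx).ne')]
        linear_combination (c ^ 2) * sin_sq_add_cos_sq (c * (x - a))
      have key : F' x ^ 2 - (2 * F x * w x * F' x + F x ^ 2 * w' x + c ^ 2 * F x ^ 2) =
          (F' x - F x * w x) ^ 2 := by linear_combination (-(F x ^ 2)) * e
      linarith [sq_nonneg (F' x - F x * w x)]
  rw [intervalIntegral.integral_add hΦ h3, hzero, zero_add,
    intervalIntegral.integral_const_mul] at hmono
  exact hmono

/-- **Wirtinger.** No regularity at the zeros of `f`. -/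
theorem wirtinger {f g : ℝ → ℝ} {a b : ℝ} (hab : a < b) (hf : ContinuousOn f (Icc a b))
    (ha0 : f a = 0) (hb0 : f b = 0) (hd : ∀ x ∈ Ioo a b, f x ≠ 0 → HasDerivAt f (g x) x)
    (hg : IntegrableOn (fun x => g x ^ 2) (Ioo a b ∩ {x | f x ≠ 0})) :
    ∫ x in Ioo a b, f x ^ 2 ≤
      ((b - a) / π) ^ 2 * ∫ x in Ioo a b ∩ {x | f x ≠ 0}, g x ^ 2 := by
  set U := Ioo a b ∩ {x | f x ≠ 0} with hU
  set J := ∫ x in U, g x ^ 2 with hJ
  have hUo : IsOpen U := (hf.mono Ioo_subset_Icc_self).isOpen_inter_preimage isOpen_Ioo isOpen_ne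
  -- one truncation
  have step : ∀ ε : ℝ, 0 < ε →
      ∫ x in Ioo a b, trunc ε (f x) ^ 2 ≤ ((b - a) / π) ^ 2 * J := by
    intro ε hε
    obtain ⟨a', ha', hna⟩ : ∃ a', a < a' ∧ ∀ x ∈ Icc a a', |f x| < ε := by
      have h := (hf a (left_mem_Icc.2 hab.le)).tendsto.abs
      rw [ha0, abs_zero] at h
      obtain ⟨u, hu, hu'⟩ :=
        mem_nhdsGE_iff_exists_Icc_subset.1
          (((nhdsWithin_Icc_eq_nhdsGE hab) ▸ h).eventually (gt_mem_nhds hε))
      exact ⟨u, hu, hu'⟩
    obtain ⟨b', hb', hnb⟩ : ∃ b', b' < b ∧ ∀ x ∈ Icc b' b, |f x| < ε := by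
      have h := (hf b (right_mem_Icc.2 hab.le)).tendsto.abs
      rw [hb0, abs_zero] at h
      obtain ⟨u, hu, hu'⟩ :=
        mem_nhdsLE_iff_exists_Icc_subset.1
          (((nhdsWithin_Icc_eq_nhdsLE hab) ▸ h).eventually (gt_mem_nhds hε))
      exact ⟨u, hu, hu'⟩
    set F := fun x => trunc ε (f x) with hF
    set F' := fun x => U.indicator (fun y => (slope' ε (f y) + slope' ε (-f y)) * g y) x with hF'
    set a'' := min a' ((2 * a + b) / 3) with ha''
    set b'' := max b' ((a + 2 * b) / 3) with hb''
    have h1 : a < a'' := lt_min ha' (by linarith)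
    have h2 : b'' < b := max_lt hb' (by linarith)
    have h12 : a'' ≤ b'' := (min_le_right _ _).trans
      ((show (2 * a + b) / 3 ≤ (a + 2 * b) / 3 by linarith).trans (le_max_right _ _))
    have hsub : Icc a'' b'' ⊆ Ioo a b := fun x hx => ⟨h1.trans_le hx.1, hx.2.trans_lt h2⟩
    have hdF : ∀ x ∈ Ioo a b, HasDerivAt F (F' x) x := by
      intro x hx
      have hfc := (hf x (Ioo_subset_Icc_self hx)).continuousAt (Icc_mem_nhds hx.1 hx.2)
      by_cases hx0 : f x = 0
      · have he : F =ᶠ[𝓝 x] fun _ => (0 : ℝ) := by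
          have ht : Tendsto (fun y => |f y|) (𝓝 x) (𝓝 0) := by
            simpa [hx0] using hfc.tendsto.abs
          filter_upwards [ht.eventually (gt_mem_nhds hε)] with y hy
          exact trunc_eq_zero (le_of_lt hy)
        have : F' x = 0 := by simp [hF', hU, hx0]
        rw [this]
        exact (hasDerivAt_const x (0 : ℝ)).congr_of_eventuallyEq he
      · have : F' x = (slope' ε (f x) + slope' ε (-f x)) * g x := by simp [hF', hU, hx, hx0]
        rw [this]
        exact (hasDerivAt_trunc ε (f x)).comp x (hd x hx hx0)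
    have hbound : ∀ x, F' x ^ 2 ≤ U.indicator (fun y => g y ^ 2) x := by
      intro x
      by_cases hx : x ∈ U
      · simp only [hF', indicator_of_mem hx, mul_pow]
        refine mul_le_of_le_one_left (sq_nonneg _) ?_
        rw [sq_le_one_iff_abs_le_one]
        exact abs_trunc_deriv_le hε _
      · simp [hF', hx]
    have hind : IntegrableOn (U.indicator fun y => g y ^ 2) (Ioo a b) :=
      ((integrable_indicator_iff hUo.measurableSet).2 hg).integrableOn
    have hmeas : AEStronglyMeasurable F' (volume.restrict (Ioo a b)) := by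
      refine (measurable_deriv F).aestronglyMeasurable.congr ?_
      filter_upwards [ae_restrict_mem measurableSet_Ioo] with x hx
      exact (hdF x hx).deriv
    have hi2 : IntegrableOn (fun x => F' x ^ 2) (Ioo a b) :=
      hind.mono' (hmeas.pow 2) (Eventually.of_forall fun x => by
        rw [Real.norm_eq_abs, abs_of_nonneg (sq_nonneg _)]; exact hbound x)
    have hone : Integrable (fun x => 1 + F' x ^ 2) (volume.restrict (Ioo a b)) :=
      (integrable_const (1 : ℝ)).add hi2
    have hi : IntegrableOn F' (Ioo a b) :=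
      hone.mono'
        hmeas (Eventually.of_forall fun x => by
          simp only [Real.norm_eq_abs]
          nlinarith [sq_abs (F' x), sq_nonneg (|F' x| - 1 / 2)])
    have hzero : ∀ x ∈ Ioo a b, x ∉ Icc a'' b'' → F x = 0 := by
      intro x hx hn
      refine trunc_eq_zero (le_of_lt ?_)
      rcases lt_or_ge x a'' with h | h
      · exact hna x ⟨hx.1.le, h.le.trans (min_le_left _ _)⟩
      · exact hnb x ⟨(le_max_left _ _).trans (le_of_not_ge fun h' => hn ⟨h, h'⟩), hx.2.le⟩
    have ha'0 : F a'' = 0 := trunc_eq_zero (le_of_lt (hna _ ⟨h1.le, min_le_left _ _⟩))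
    have hb'0 : F b'' = 0 := trunc_eq_zero (le_of_lt (hnb _ ⟨le_max_left _ _, h2.le⟩))
    have core := wirtinger_core h1 h12 h2 (fun x hx => hdF x (hsub hx)) ha'0 hb'0
      (hi.mono_set hsub) (hi2.mono_set hsub)
    rw [intervalIntegral.integral_of_le h12, intervalIntegral.integral_of_le h12,
      ← integral_Icc_eq_integral_Ioc, ← integral_Icc_eq_integral_Ioc,
      setIntegral_eq_of_subset_of_forall_sdiff_eq_zero (f := fun x => F x ^ 2) measurableSet_Ioo
        hsub (fun x hx => by simp [hzero x hx.1 hx.2]) |>.symm] at core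
    have hle : ∫ x in Icc a'' b'', F' x ^ 2 ≤ J := by
      refine (setIntegral_mono_set hi2 (Eventually.of_forall fun x => sq_nonneg _)
        hsub.eventuallyLE).trans ?_
      refine (integral_mono hi2 hind hbound).trans (le_of_eq ?_)
      rw [setIntegral_indicator hUo.measurableSet, hJ,
        inter_eq_self_of_subset_right (show U ⊆ Ioo a b from inter_subset_left)]
    have hpos : 0 < (π / (b - a)) ^ 2 := by
      have := div_pos pi_pos (sub_pos.2 hab); positivity
    have e : ((b - a) / π) ^ 2 = ((π / (b - a)) ^ 2)⁻¹ := by rw [← inv_pow, inv_div]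
    rw [e, inv_mul_eq_div, le_div_iff₀ hpos, mul_comm]
    exact core.trans hle
  obtain ⟨M, hM⟩ := isCompact_Icc.exists_bound_of_continuousOn hf
  have hlim : Tendsto (fun n : ℕ => ∫ x in Ioo a b, trunc (1 / (n + 1)) (f x) ^ 2) atTop
      (𝓝 (∫ x in Ioo a b, f x ^ 2)) := by
    refine tendsto_integral_of_dominated_convergence (fun _ => M ^ 2) (fun n => ?_)
      (integrable_const _) (fun n => ?_) ?_
    · exact ((((continuous_iff_continuousAt.2 fun t =>
        (hasDerivAt_trunc _ t).continuousAt)).comp_continuousOn (hf.mono Ioo_subset_Icc_self)).pow 2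
        ).aestronglyMeasurable measurableSet_Ioo
    · filter_upwards [ae_restrict_mem measurableSet_Ioo] with x hx
      rw [norm_pow, Real.norm_eq_abs]
      exact pow_le_pow_left₀ (abs_nonneg _) ((abs_trunc_le (by positivity) _).trans
        (by simpa using hM x (Ioo_subset_Icc_self hx))) 2
    · refine Eventually.of_forall fun x => (Tendsto.pow ?_ 2)
      rw [tendsto_iff_norm_sub_tendsto_zero]
      refine squeeze_zero (fun n => norm_nonneg _)
        (fun n => abs_trunc_sub_le (by positivity) (f x)) ?_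
      simpa using (tendsto_one_div_add_atTop_nhds_zero_nat (𝕜 := ℝ)).const_mul 2
  exact le_of_tendsto hlim (Eventually.of_forall fun n => step _ (by positivity))

/-- The periodic version: one zero on the circle suffices. -/
theorem wirtinger_circle {f g : ℝ → ℝ} (hf : Continuous f) (hper : Function.Periodic f (2 * π))
    (hgper : Function.Periodic g (2 * π)) {θ : ℝ} (hθ : f θ = 0)
    (hd : ∀ x, f x ≠ 0 → HasDerivAt f (g x) x)
    (hg : ∀ a, IntegrableOn (fun x => g x ^ 2) (Ioo a (a + 2 * π) ∩ {x | f x ≠ 0})) :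
    ∫ x in -π..π, f x ^ 2 ≤
      4 * ∫ x in -π..π, {y | f y ≠ 0}.indicator (fun y => g y ^ 2) x := by
  have hs : MeasurableSet {x | f x ≠ 0} := (isOpen_ne.preimage hf).measurableSet
  have hab : θ < θ + 2 * π := by linarith [pi_pos]
  have h := wirtinger hab hf.continuousOn hθ (by rw [hper θ, hθ]) (fun x _ => hd x) (hg θ)
  rw [show ((θ + 2 * π - θ) / π) ^ 2 = 4 by field_simp; ring, ← setIntegral_indicator hs,
    ← integral_Ioc_eq_integral_Ioo, ← integral_Ioc_eq_integral_Ioo,
    ← intervalIntegral.integral_of_le hab.le, ← intervalIntegral.integral_of_le hab.le] at h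
  have p1 : Function.Periodic (fun x => f x ^ 2) (2 * π) := fun x => by simp only [hper x]
  have p2 : Function.Periodic ({y | f y ≠ 0}.indicator fun y => g y ^ 2) (2 * π) := fun x => by
    simp only [indicator_apply, mem_ofPred_eq, hper x, hgper x]
  rw [p1.intervalIntegral_add_eq θ (-π), p2.intervalIntegral_add_eq θ (-π),
    show -π + 2 * π = π by ring] at h
  exact h

end Vale.Agent.P128.Classify
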