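import Vale.Agent.P128.Classify.Wirtinger
import Vale.Agent.P128.Classify.Polar
import Vale.Agent.P128.Connected.Potential
import Vale.Agent.P128.Connected.SecondVar

/-!
# Monotonicity of the normalised energy

For a potential `v` which is continuous, vanishes on `K` and is harmonic off `K`, the energy in a
disk is a circle integral, and if every circle round the centre meets `K` then the energy divided
by the radius is nondecreasing.
-/

noncomputable section

namespace Vale.Agent.P128.Classify

open MeasureTheory Filter Metric Set Real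
open Vale.Agent.P128.Islands Vale.Agent.P128.Connected
open scoped Topology ENNReal NNReal ContDiff

/-- A potential which vanishes on `K`. -/
structure Pot (v : ℂ → ℝ) (K : Set ℂ) : Prop where
  isClosed : IsClosed K
  null : (volume : Measure ℂ) K = 0
  cont : Continuous v
  smooth : ContDiffOn ℝ ∞ v Kᶜ
  zero : ∀ x ∈ K, v x = 0
  memLp : ∀ r, MemLp (grad v) 2 (volume.restrict (ball 0 r))
  harmonic : ∀ θ, IsTest Kᶜ θ → ∫ x, dot (grad v x) (grad θ x) = 0

/-- The derivative in the direction pointing away from `c`. -/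
def radial (v : ℂ → ℝ) (c y : ℂ) : ℝ := dot (grad v y) (‖y - c‖⁻¹ • (y - c))

/-- The energy in a disk. -/
def dissip (v : ℂ → ℝ) (c : ℂ) (r : ℝ) : ℝ := ∫ x in ball c r, ‖grad v x‖ ^ 2

/-- The conjugate potential of a minimiser, when it vanishes on `K`. -/
lemma pot_of_reg {u v : ℂ → ℝ} {K : Set ℂ} (hu : Reg u K) (hc : Continuous v)
    (hs : ContDiffOn ℝ ∞ v Kᶜ) (hg : ∀ x ∉ K, grad v x = rgrad u x) (hz : ∀ x ∈ K, v x = 0) :
    Pot v K ∧ ∀ c r, dissip v c r = ∫ x in ball c r, ‖grad u x‖ ^ 2 := by
  have hae : ∀ᵐ x : ℂ, grad v x = rgrad u x :=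
    (measure_eq_zero_iff_ae_notMem.1 hu.null).mono hg
  refine ⟨⟨hu.isClosed, hu.null, hc, hs, hz, fun r => ?_, fun θ hθ => ?_⟩, fun c r => ?_⟩
  · refine (memLp_congr_ae (ae_restrict_of_ae hae)).2 ?_
    exact (hu.memLp r).const_mul Complex.I
  · have e : (fun x => dot (grad v x) (grad θ x)) =ᵐ[volume]
        fun x => -dot (grad u x) (rgrad θ x) := by
      filter_upwards [hae] with x hx
      simp [hx, dot, rgrad]
    rw [integral_congr_ae e, integral_neg,
      integral_grad_rgrad hu.isClosed.isOpen_compl hu.smooth hθ, neg_zero]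
  · refine integral_congr_ae ((ae_restrict_of_ae hae).mono fun x hx => ?_)
    simp [hx, Potential.norm_rgrad]

variable {v : ℂ → ℝ} {K : Set ℂ}

lemma Pot.memLp_ball (h : Pot v K) (c : ℂ) (r : ℝ) :
    MemLp (grad v) 2 (volume.restrict (ball c r)) :=
  (h.memLp (‖c‖ + r)).mono_measure (Measure.restrict_mono_set _ fun z hz => by
    rw [mem_ball_zero_iff]
    rw [mem_ball, dist_eq_norm] at hz
    linarith [norm_le_norm_add_norm_sub' z c])

lemma Pot.differentiableAt (h : Pot v K) {x : ℂ} (hx : x ∉ K) : DifferentiableAt ℝ v x :=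
  ((h.smooth x hx).contDiffAt (h.isClosed.isOpen_compl.mem_nhds hx)).differentiableAt (by simp)

/-- The gradient vanishes almost everywhere on the zero set. -/
lemma Pot.ae_grad_eq_zero (h : Pot v K) : ∀ᵐ x : ℂ, v x = 0 → grad v x = 0 := by
  set s := {x | v x = 0} ∩ Kᶜ
  have hs : MeasurableSet s :=
    (isClosed_eq h.cont continuous_const).measurableSet.inter h.isClosed.measurableSet.compl
  have hA : ApproximatesLinearOn (fun x => (v x : ℂ)) (0 : ℂ →L[ℝ] ℂ) s 0 := by
    intro x hx y hy
    simp [show v x = 0 from hx.1, show v y = 0 from hy.1]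
  have hd : ∀ x ∈ s, HasFDerivWithinAt (fun z => (v z : ℂ))
      (Complex.ofRealCLM.comp (fderiv ℝ v x)) s x := fun x hx =>
    (Complex.ofRealCLM.hasFDerivAt.comp x (h.differentiableAt hx.2).hasFDerivAt).hasFDerivWithinAt
  have := hA.norm_fderiv_sub_le volume hs _ hd
  rw [ae_restrict_iff' hs] at this
  filter_upwards [this, measure_eq_zero_iff_ae_notMem.1 h.null] with x hx hxK h0
  have hz : Complex.ofRealCLM.comp (fderiv ℝ v x) = 0 := by
    simpa using hx ⟨h0, hxK⟩
  have e : ∀ w, fderiv ℝ v x w = 0 := fun w => by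
    simpa using congrArg (fun T : ℂ →L[ℝ] ℂ => T w) hz
  simp [grad, e, Complex.ext_iff]

/-- The weak energy identity. -/
lemma Pot.energy_identity (h : Pot v K) {η : ℂ → ℝ} (hη : IsTest univ η) :
    ∫ x, (η x * ‖grad v x‖ ^ 2 + v x * dot (grad v x) (grad η x)) = 0 := by
  -- a smooth truncation of the small values
  let b : ContDiffBump (0 : ℝ) := ⟨1, 2, one_pos, one_lt_two⟩
  set T : ℝ → ℝ := fun t => t * (1 - b t) with hT
  have hTs : ContDiff ℝ ∞ T := contDiff_id.mul (contDiff_const.sub b.contDiff)
  have hT0 : ∀ t, |t| ≤ 1 → T t = 0 := fun t ht => by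
    simp [hT, b.one_of_mem_closedBall (mem_closedBall_zero_iff.2 ht)]
  have hT2 : ∀ t, 2 ≤ |t| → T t = t := fun t ht => by
    simp [hT, b.zero_of_le_dist (x := t) (by simpa [Real.dist_eq] using ht)]
  have hTle : ∀ t, |T t| ≤ |t| := fun t => by
    simp only [hT, abs_mul]
    refine mul_le_of_le_one_right (abs_nonneg _) (abs_le.2 ⟨?_, ?_⟩) <;>
      linarith [b.nonneg' t, b.le_one (x := t)]
  have hTd : Continuous (deriv T) := hTs.continuous_deriv (by simp)
  have hTd2 : ∀ t : ℝ, 2 < |t| → deriv T t = 1 := fun t ht => by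
    have : T =ᶠ[𝓝 t] id := by
      filter_upwards [(isOpen_lt continuous_const continuous_abs).mem_nhds ht] with y hy
      exact hT2 y (le_of_lt hy)
    rw [this.deriv_eq, deriv_id]
  obtain ⟨C, hC⟩ : ∃ C, ∀ t, |deriv T t| ≤ C := by
    obtain ⟨C, hC⟩ := (isCompact_Icc (a := -2) (b := 2)).exists_bound_of_continuousOn hTd.continuousOn
    refine ⟨max C 1, fun t => ?_⟩
    by_cases ht : t ∈ Icc (-2 : ℝ) 2
    · exact (hC t ht).trans (le_max_left _ _)
    · rw [hTd2 t (by by_contra hh; exact ht (abs_le.1 (le_of_not_gt hh))), abs_one]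
      exact le_max_right _ _
  have hC0 : 0 ≤ C := (abs_nonneg _).trans (hC 0)
  set ε : ℕ → ℝ := fun n => 1 / (n + 1) with hε
  have hεpos : ∀ n, 0 < ε n := fun n => by simp only [hε]; positivity
  set f : ℕ → ℂ → ℝ := fun n x => ε n * T (v x / ε n) with hf
  set F : ℕ → ℂ → ℝ := fun n x =>
    η x * deriv T (v x / ε n) * ‖grad v x‖ ^ 2 + f n x * dot (grad v x) (grad η x)
  -- each truncation is admissible
  have step : ∀ n, ∫ x, F n x = 0 := by
    intro n
    have hne : ∀ x, η x * f n x ≠ 0 → ε n ≤ |v x| := fun x hx => by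
      by_contra hlt
      refine hx ?_
      simp only [hf]
      rw [hT0, mul_zero, mul_zero]
      rw [abs_div, abs_of_pos (hεpos n), div_le_one (hεpos n)]
      exact (le_of_not_ge hlt)
    have hsub : tsupport (fun x => η x * f n x) ⊆ {x | ε n ≤ |v x|} :=
      closure_minimal hne (isClosed_le continuous_const h.cont.abs)
    have hK : ∀ x ∈ K, x ∉ tsupport (fun x => η x * f n x) := fun x hx hx' => by
      have := hsub hx'
      simp only [mem_ofPred_eq, h.zero x hx, abs_zero] at this
      linarith [hεpos n]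
    have hfs : ContDiffOn ℝ ∞ (f n) Kᶜ :=
      contDiffOn_const.mul (hTs.comp_contDiffOn (h.smooth.div_const _))
    have htest : IsTest Kᶜ (fun x => η x * f n x) := by
      refine ⟨contDiff_iff_contDiffAt.2 fun x => ?_, hη.2.1.mul_right,
        fun x hx hK' => hK x hK' hx⟩
      by_cases hx : x ∈ K
      · exact contDiffAt_const.congr_of_eventuallyEq (notMem_tsupport_iff_eventuallyEq.1 (hK x hx))
      · exact hη.1.contDiffAt.mul
          ((hfs x hx).contDiffAt (h.isClosed.isOpen_compl.mem_nhds hx))
    refine (integral_congr_ae ?_).trans (h.harmonic _ htest)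
    filter_upwards [measure_eq_zero_iff_ae_notMem.1 h.null] with x hx
    have hτ : DifferentiableAt ℝ (fun t => ε n * T (t / ε n)) (v x) := by
      have := hTs.differentiable (by simp)
      fun_prop
    have hder : deriv (fun t => ε n * T (t / ε n)) (v x) = deriv T (v x / ε n) := by
      have := ((hTs.differentiable (by simp) (v x / ε n)).hasDerivAt.comp (v x)
        ((hasDerivAt_id (v x)).div_const (ε n))).const_mul (ε n)
      refine this.deriv.trans ?_
      field_simp [(hεpos n).ne']
    have hgf : grad (f n) x = deriv T (v x / ε n) • grad v x := by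
      rw [← hder]
      exact grad_comp_real hτ (h.differentiableAt hx)
    rw [grad_mul (hη.1.differentiable (by simp) x)
      (((hfs x hx).contDiffAt (h.isClosed.isOpen_compl.mem_nhds hx)).differentiableAt (by simp)),
      hgf]
    simp only [F, norm_sq_eq_dot]
    simp [dot]
    ring
  -- the dominating function
  obtain ⟨R, hR⟩ := hη.2.1.isCompact.isBounded.subset_ball (0 : ℂ)
  have cg : Continuous (grad η) := by
    have := (contDiffOn_grad isOpen_univ hη.1.contDiffOn).continuousOn
    rwa [continuousOn_univ] at this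
  have hout : ∀ x, x ∉ ball (0 : ℂ) R → η x = 0 ∧ grad η x = 0 := fun x hx =>
    ⟨image_eq_zero_of_notMem_tsupport fun h' => hx (hR h'),
      grad_eq_zero_of_notMem_tsupport fun h' => hx (hR h')⟩
  have hm : Measurable (grad v) := Potential.measurable_grad v
  have hdotm : Measurable fun x => dot (grad v x) (grad η x) := by
    unfold dot
    exact ((Complex.measurable_re.comp hm).mul (Complex.measurable_re.comp cg.measurable)).add
      ((Complex.measurable_im.comp hm).mul (Complex.measurable_im.comp cg.measurable))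
  obtain ⟨M₁, hM₁⟩ := hη.2.1.exists_bound_of_continuous hη.1.continuous
  obtain ⟨M₂, hM₂⟩ := (HasCompactSupport.intro hη.2.1.isCompact fun x hx =>
    grad_eq_zero_of_notMem_tsupport hx : HasCompactSupport (grad η)).exists_bound_of_continuous cg
  obtain ⟨M₃, hM₃⟩ := (isCompact_closedBall (0 : ℂ) R).exists_bound_of_continuousOn h.cont.continuousOn
  set g : ℂ → ℝ := (ball (0 : ℂ) R).indicator fun x =>
    M₁ * C * ‖grad v x‖ ^ 2 + |M₃| * M₂ * ‖grad v x‖ with hgdef
  have hgi : Integrable g := by
    refine (integrable_indicator_iff measurableSet_ball).2 ?_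
    have : IsFiniteMeasure ((volume : Measure ℂ).restrict (ball 0 R)) :=
      isFiniteMeasure_restrict.2 measure_ball_lt_top.ne
    exact ((h.memLp R).norm.integrable_sq.const_mul _).add
      (((h.memLp R).integrable one_le_two).norm.const_mul _)
  have hbound : ∀ n x, ‖F n x‖ ≤ g x := by
    intro n x
    by_cases hx : x ∈ ball (0 : ℂ) R
    · rw [hgdef, indicator_of_mem hx, Real.norm_eq_abs]
      refine (abs_add_le _ _).trans (add_le_add ?_ ?_)
      · rw [abs_mul, abs_mul, abs_of_nonneg (sq_nonneg ‖grad v x‖)]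
        gcongr
        · exact (norm_nonneg _).trans (hM₁ x)
        · exact hM₁ x
        · exact hC _
      · have h1 : |f n x| ≤ |M₃| := by
          simp only [hf, abs_mul, abs_of_pos (hεpos n)]
          calc ε n * |T (v x / ε n)| ≤ ε n * |v x / ε n| :=
                mul_le_mul_of_nonneg_left (hTle _) (hεpos n).le
            _ = |v x| := by rw [abs_div, abs_of_pos (hεpos n)]; field_simp [(hεpos n).ne']
            _ ≤ |M₃| := (hM₃ x (ball_subset_closedBall hx)).trans (le_abs_self _)
        rw [abs_mul, mul_assoc]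
        refine mul_le_mul h1 ((abs_dot_le _ _).trans ?_) (abs_nonneg _) (abs_nonneg _)
        rw [mul_comm M₂]
        exact mul_le_mul_of_nonneg_left (hM₂ x) (norm_nonneg _)
    · simp [F, hgdef, hx, hout x hx, dot]
  have hFm : ∀ n, AEStronglyMeasurable (F n) volume := fun n =>
    (((hη.1.continuous.mul (hTd.comp (h.cont.div_const _))).measurable.mul
      (hm.norm.pow_const 2)).add ((continuous_const.mul
        (hTs.continuous.comp (h.cont.div_const _))).measurable.mul hdotm)).aestronglyMeasurable
  have hlim : Tendsto (fun n => ∫ x, F n x) atTop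
      (𝓝 (∫ x, (η x * ‖grad v x‖ ^ 2 + v x * dot (grad v x) (grad η x)))) := by
    refine tendsto_integral_of_dominated_convergence g hFm hgi
      (fun n => Eventually.of_forall (hbound n)) ?_
    filter_upwards [h.ae_grad_eq_zero] with x hx
    by_cases h0 : v x = 0
    · simp [F, hx h0, dot]
    · refine tendsto_const_nhds.congr' ?_
      have hev : ∀ᶠ n : ℕ in atTop, ε n < |v x| / 2 :=
        (tendsto_one_div_add_atTop_nhds_zero_nat (𝕜 := ℝ)).eventually
          (gt_mem_nhds (by positivity))
      filter_upwards [hev] with n hn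
      have h2 : 2 < |v x / ε n| := by
        rw [abs_div, abs_of_pos (hεpos n), lt_div_iff₀ (hεpos n)]
        linarith
      simp only [F, hf, hTd2 _ h2, hT2 _ h2.le, mul_one]
      rw [mul_div_cancel₀ _ (hεpos n).ne']
  exact tendsto_nhds_unique hlim (tendsto_const_nhds.congr fun n => (step n).symm)

lemma Pot.integrableOn_energy (h : Pot v K) (c : ℂ) (r : ℝ) :
    IntegrableOn (fun y => ‖grad v y‖ ^ 2) (ball c r) :=
  (h.memLp_ball c r).norm.integrable_sq

lemma measurable_radial (v : ℂ → ℝ) (c : ℂ) : Measurable (radial v c) := by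
  have hm := Potential.measurable_grad v
  have hy : Measurable fun y : ℂ => ‖y - c‖⁻¹ • (y - c) :=
    ((measurable_id.sub_const c).norm.inv).smul (measurable_id.sub_const c)
  unfold radial dot
  exact ((Complex.measurable_re.comp hm).mul (Complex.measurable_re.comp hy)).add
    ((Complex.measurable_im.comp hm).mul (Complex.measurable_im.comp hy))

lemma abs_radial_le (v : ℂ → ℝ) (c y : ℂ) : |radial v c y| ≤ ‖grad v y‖ := by
  refine (abs_dot_le _ _).trans (mul_le_of_le_one_right (norm_nonneg _) ?_)
  rw [norm_smul, norm_inv, norm_norm]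
  exact inv_mul_le_one

lemma Pot.integrableOn_radial (h : Pot v K) (c : ℂ) (r : ℝ) :
    IntegrableOn (fun y => v y * radial v c y) (ball c r) := by
  have : IsFiniteMeasure ((volume : Measure ℂ).restrict (ball c r)) :=
    isFiniteMeasure_restrict.2 measure_ball_lt_top.ne
  obtain ⟨M, hM⟩ := (isCompact_closedBall c r).exists_bound_of_continuousOn h.cont.continuousOn
  refine (((h.memLp_ball c r).integrable one_le_two).norm.const_mul |M|).mono'
    (h.cont.measurable.mul (measurable_radial v c)).aestronglyMeasurable ?_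
  filter_upwards [ae_restrict_mem measurableSet_ball] with y hy
  rw [norm_mul, Real.norm_eq_abs, Real.norm_eq_abs]
  exact mul_le_mul ((hM y (ball_subset_closedBall hy)).trans (le_abs_self _))
    (abs_radial_le v c y) (abs_nonneg _) (abs_nonneg _)

lemma Pot.intervalIntegrable_energy (h : Pot v K) (c : ℂ) {r : ℝ} (hr : 0 ≤ r) :
    IntervalIntegrable (circ (fun y => ‖grad v y‖ ^ 2) c) volume 0 r :=
  intervalIntegrable_circ hr (h.integrableOn_energy c r)

lemma Pot.dissip_eq (h : Pot v K) (c : ℂ) {r : ℝ} (hr : 0 ≤ r) :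
    dissip v c r = ∫ s in 0..r, circ (fun y => ‖grad v y‖ ^ 2) c s :=
  setIntegral_ball_eq_circ hr (h.integrableOn_energy c r)

/-- The gradient of a radial function. -/
lemma grad_radial {H : ℝ → ℝ} {H' : ℝ} {c y : ℂ} (hy : y ≠ c)
    (hH : HasDerivAt H H' ‖y - c‖) :
    grad (fun z => H ‖z - c‖) y = H' • (‖y - c‖⁻¹ • (y - c)) := by
  have hn : 0 < ‖y - c‖ := norm_pos_iff.2 (sub_ne_zero.2 hy)
  have h1 : HasFDerivAt (fun z => ‖z - c‖)
      ((1 / (2 * Real.sqrt (‖y - c‖ ^ 2))) • (2 • (innerSL ℝ (y - c)).comp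
        (ContinuousLinearMap.id ℝ ℂ))) y := by
    have := (((hasFDerivAt_id y).sub_const c).norm_sq).sqrt (by simpa using (pow_pos hn 2).ne')
    refine this.congr_of_eventuallyEq (Eventually.of_forall fun z => ?_)
    simp [Real.sqrt_sq]
  have h2 := hH.comp_hasFDerivAt y h1
  rw [Real.sqrt_sq hn.le] at h2
  have h3 : ∀ w, fderiv ℝ (fun z => H ‖z - c‖) y w = H' * (‖y - c‖⁻¹ * dot (y - c) w) := by
    intro w
    rw [show (fun z => H ‖z - c‖) = H ∘ fun z => ‖z - c‖ from rfl, h2.fderiv, dot_eq_inner]
    simp [inner_sub_left]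
    field_simp
    simp
  apply Complex.ext <;> simp [grad, h3, dot]

/-- **The energy is a circle integral**, for almost every radius. -/
theorem Pot.dissip_eq_boundary (h : Pot v K) (c : ℂ) :
    ∀ᵐ s, s ∈ Ioi (0 : ℝ) → dissip v c s = circ (fun y => v y * radial v c y) c s := by
  set Fe := circ (fun y => ‖grad v y‖ ^ 2) c
  set P := circ (fun y => v y * radial v c y) c
  set Φ : ℝ → ℝ := fun s => ∫ t in 0..s, Fe t
  suffices hmain : ∀ᵐ s, s ∈ Ioi (0 : ℝ) → Φ s - P s = 0 by
    filter_upwards [hmain] with s hs hs0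
    rw [h.dissip_eq c (le_of_lt hs0)]
    linarith [hs hs0]
  have hΦac : ∀ r, 0 ≤ r → AbsolutelyContinuousOnInterval Φ 0 r := fun r hr =>
    (h.intervalIntegrable_energy c hr).absolutelyContinuousOnInterval_intervalIntegral
      (c := 0) left_mem_uIcc
  have hΦc : ∀ r, 0 ≤ r → ContinuousOn Φ (Icc 0 r) := fun r hr => by
    simpa [uIcc_of_le hr] using (hΦac r hr).continuousOn
  have hPi : ∀ r, 0 ≤ r → IntervalIntegrable P volume 0 r := fun r hr =>
    intervalIntegrable_circ hr (h.integrableOn_radial c r)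
  have hli : LocallyIntegrableOn (fun s => Φ s - P s) (Ioi 0) := by
    refine (locallyIntegrableOn_iff isOpen_Ioi.isLocallyClosed).2 fun S hSU hS => ?_
    obtain ⟨r, hr⟩ := hS.bddAbove
    have hsub : S ⊆ Icc 0 (max r 0) := fun s hs =>
      ⟨le_of_lt (hSU hs), (hr hs).trans (le_max_left _ _)⟩
    exact (((hΦc _ (le_max_right _ _)).integrableOn_compact isCompact_Icc).sub
      ((intervalIntegrable_iff_integrableOn_Icc_of_le (le_max_right _ _)).1
        (hPi _ (le_max_right _ _)))).mono_set hsub
  refine isOpen_Ioi.ae_eq_zero_of_integral_contDiff_smul_eq_zero hli fun p hp hpc hps => ?_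
  obtain ⟨r, hr⟩ := hpc.isCompact.bddAbove
  set R := max r 0 + 1 with hRd
  have hR0 : 0 < R := by positivity
  have hbig : ∀ s, max r 0 < s → p s = 0 := fun s hs =>
    image_eq_zero_of_notMem_tsupport fun hs' => by linarith [hr hs', le_max_left r 0]
  have hneg : ∀ s, s ≤ 0 → p s = 0 := fun s hs =>
    image_eq_zero_of_notMem_tsupport fun hs' => not_lt.2 hs (hps hs')
  -- the radial profile
  set H : ℝ → ℝ := fun s => (∫ t in 0..R, p t) - ∫ t in 0..s, p t with hH
  have hdH : ∀ s, HasDerivAt H (-p s) s := fun s =>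
    ((hp.continuous.integral_hasStrictDerivAt 0 s).hasDerivAt).const_sub _
  have hHs : ContDiff ℝ ∞ H := by
    refine contDiff_infty_iff_deriv.2 ⟨fun s => (hdH s).differentiableAt, ?_⟩
    rw [show deriv H = fun s => -p s from funext fun s => (hdH s).deriv]
    exact hp.neg
  have hHR : ∀ s, R ≤ s → H s = 0 := fun s hs => by
    have : ∫ t in R..s, p t = 0 :=
      intervalIntegral.integral_zero_ae (Eventually.of_forall fun t ht => hbig t (by
        rw [uIoc_of_le hs] at ht; linarith [ht.1]))
    simp only [hH]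
    rw [← intervalIntegral.integral_add_adjacent_intervals (hp.continuous.intervalIntegrable 0 R)
      (hp.continuous.intervalIntegrable R s), this, add_zero, sub_self]
  obtain ⟨δ, hδ, hδ'⟩ := Metric.isOpen_iff.1 (isClosed_tsupport p).isOpen_compl 0
    fun h0 => lt_irrefl (0 : ℝ) (mem_Ioi.1 (hps h0))
  have hHδ : ∀ s, |s| < δ → H s = H 0 := fun s hs => by
    suffices e0 : ∫ t in 0..s, p t = 0 by simp only [hH, intervalIntegral.integral_same, e0]
    refine intervalIntegral.integral_zero_ae (Eventually.of_forall fun t ht => ?_)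
    refine image_eq_zero_of_notMem_tsupport (hδ' ?_)
    rw [mem_ball, Real.dist_eq, sub_zero]
    refine lt_of_le_of_lt ?_ hs
    rcases le_total 0 s with h0 | h0
    · rw [uIoc_of_le h0] at ht
      rw [abs_of_pos ht.1, abs_of_nonneg h0]; exact ht.2
    · rw [uIoc_of_ge h0] at ht
      rw [abs_of_nonpos ht.2, abs_of_nonpos h0]; linarith [ht.1]
  set η : ℂ → ℝ := fun z => H ‖z - c‖ with hη
  have hηc : HasCompactSupport η := HasCompactSupport.intro (isCompact_closedBall c R) fun z hz => by
    rw [mem_closedBall, dist_eq_norm, not_le] at hz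
    exact hHR _ hz.le
  have hηt : IsTest univ η := by
    refine ⟨contDiff_iff_contDiffAt.2 fun z => ?_, hηc, subset_univ _⟩
    by_cases hz : z = c
    · refine (contDiffAt_const (c := H 0)).congr_of_eventuallyEq ?_
      filter_upwards [ball_mem_nhds z hδ] with w hw
      exact hHδ _ (by rwa [hz, mem_ball, dist_eq_norm, ← abs_norm] at hw)
    · exact hHs.contDiffAt.comp z
        ((contDiffAt_norm ℝ (sub_ne_zero.2 hz)).comp z (contDiffAt_id.sub contDiffAt_const))
  have e := h.energy_identity hηt
  have hae : (fun x => η x * ‖grad v x‖ ^ 2 + v x * dot (grad v x) (grad η x)) =ᵐ[volume]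
      fun x => H ‖x - c‖ * ‖grad v x‖ ^ 2 - p ‖x - c‖ * (v x * radial v c x) := by
    filter_upwards [Measure.ae_ne volume c] with x hx
    rw [hη, grad_radial hx (hdH _)]
    simp [radial, dot]
    ring
  have j1 : Integrable fun x => H ‖x - c‖ * ‖grad v x‖ ^ 2 := by
    obtain ⟨M, hM⟩ := hηc.exists_bound_of_continuous hηt.1.continuous
    refine (integrableOn_iff_integrable_of_support_subset (s := ball c (R + 1)) ?_).1
      ((h.integrableOn_energy c (R + 1)).bdd_mul hηt.1.continuous.aestronglyMeasurable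
        (Eventually.of_forall hM))
    refine (Function.support_mul_subset_left _ _).trans fun x hx => ?_
    by_contra hn
    rw [mem_ball, dist_eq_norm, not_lt] at hn
    exact hx (hHR _ (by linarith))
  have j2 : Integrable fun x => p ‖x - c‖ * (v x * radial v c x) := by
    have hcq : Continuous fun x => p ‖x - c‖ := hp.continuous.comp (by fun_prop)
    obtain ⟨M, hM⟩ := hpc.exists_bound_of_continuous hp.continuous
    refine (integrableOn_iff_integrable_of_support_subset (s := ball c (R + 1)) ?_).1
      ((h.integrableOn_radial c (R + 1)).bdd_mul hcq.aestronglyMeasurable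
        (Eventually.of_forall fun x => hM _))
    refine (Function.support_mul_subset_left _ _).trans fun x hx => ?_
    by_contra hn
    rw [mem_ball, dist_eq_norm, not_lt] at hn
    exact hx (hbig _ (by linarith))
  rw [integral_congr_ae hae, integral_sub j1 j2, integral_radial_mul j1,
    integral_radial_mul j2] at e
  -- integrate by parts
  have cut : ∀ (q G : ℝ → ℝ), (∀ s, R < s → q s = 0) →
      ∫ s in Ioi 0, q s * G s = ∫ s in 0..R, q s * G s := fun q G hq => by
    rw [intervalIntegral.integral_of_le hR0.le]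
    refine setIntegral_eq_of_subset_of_forall_sdiff_eq_zero measurableSet_Ioi Ioc_subset_Ioi_self
      fun s hs => ?_
    rw [hq s (by by_contra hh; exact hs.2 ⟨hs.1, le_of_not_gt hh⟩), zero_mul]
  rw [cut H _ fun s hs => hHR s hs.le, cut p _ fun s hs => hbig s (by linarith)] at e
  have hHac : AbsolutelyContinuousOnInterval H 0 R :=
    ((hHs.of_le (WithTop.coe_le_coe.2 le_top) : ContDiff ℝ 1 H).contDiffOn
      ).absolutelyContinuousOnInterval
  have hder : ∀ᵐ s, s ∈ uIcc 0 R → deriv Φ s = Fe s := by
    filter_upwards [(h.intervalIntegrable_energy c hR0.le).ae_hasDerivAt_integral] with s hs hs'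
    exact (hs hs' 0 left_mem_uIcc).deriv
  have parts := hHac.integral_mul_deriv_eq_deriv_mul (hΦac R hR0.le)
  rw [intervalIntegral.integral_congr_ae (g := fun s => H s * Fe s) (hder.mono fun s hs hs' => by
      rw [hs (uIoc_subset_uIcc hs')]),
    hHR R le_rfl, show Φ 0 = 0 from intervalIntegral.integral_same,
    intervalIntegral.integral_congr (g := fun s => -(p s * Φ s)) (f := fun s => deriv H s * Φ s)
      fun s _ => by simp [(hdH s).deriv],
    intervalIntegral.integral_neg] at parts
  simp only [smul_eq_mul, mul_sub]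
  have hΦi : IntervalIntegrable (fun s => p s * Φ s) volume 0 R :=
    (hp.continuous.continuousOn.mul (by
      simpa [uIcc_of_le hR0.le] using hΦc R hR0.le)).intervalIntegrable
  have e2 : ∫ s, (p s * Φ s - p s * P s) = ∫ s in 0..R, (p s * Φ s - p s * P s) := by
    rw [intervalIntegral.integral_eq_integral_of_support_subset]
    intro s hs
    rw [Function.mem_support, ← mul_sub] at hs
    refine ⟨lt_of_not_ge fun h0 => hs (by rw [hneg s h0, zero_mul]), ?_⟩
    by_contra hh
    exact hs (by rw [hbig s (by linarith [not_le.1 hh]), zero_mul])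
  rw [e2, intervalIntegral.integral_sub hΦi
    ((hPi R hR0.le).continuousOn_mul hp.continuous.continuousOn)]
  linarith

lemma circle_hasDerivAt (h : Pot v K) (c : ℂ) (s θ : ℝ) (hK : circleMap c s θ ∉ K) :
    HasDerivAt (fun t => v (circleMap c s t))
      (dot (grad v (circleMap c s θ)) ((circleMap c s θ - c) * Complex.I)) θ := by
  have := (h.differentiableAt hK).hasFDerivAt.comp_hasDerivAt θ (hasDerivAt_circleMap c s θ)
  rw [fderiv_eq_dot_grad] at this
  have e : circleMap c s θ - c = circleMap 0 s θ := by simp [circleMap]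
  rw [e]
  exact this

/-- The angular derivative. -/
def angular (v : ℂ → ℝ) (c : ℂ) (s θ : ℝ) : ℝ :=
  dot (grad v (circleMap c s θ)) ((circleMap c s θ - c) * Complex.I)

lemma angular_periodic (v : ℂ → ℝ) (c : ℂ) (s : ℝ) :
    Function.Periodic (angular v c s) (2 * π) := fun θ => by
  simp only [angular, (periodic_circleMap c s) θ]

lemma angular_sq_add (v : ℂ → ℝ) (c : ℂ) {s : ℝ} (hs : 0 < s) (θ : ℝ) :
    angular v c s θ ^ 2 + s ^ 2 * radial v c (circleMap c s θ) ^ 2 =
      s ^ 2 * ‖grad v (circleMap c s θ)‖ ^ 2 := by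
  have hze : ‖circleMap c s θ - c‖ = s := by simp [circleMap, abs_of_pos hs]
  have hn2 : s ^ 2 = (circleMap c s θ - c).re ^ 2 + (circleMap c s θ - c).im ^ 2 := by
    have := congrArg (fun t : ℝ => t ^ 2) hze
    simp only [Complex.sq_norm, Complex.normSq_apply] at this
    rw [← this]
    ring
  simp only [angular, radial, hze, norm_sq_eq_dot, dot, Complex.smul_re, Complex.smul_im,
    Complex.mul_re, Complex.mul_im, Complex.I_re, Complex.I_im, smul_eq_mul]
  field_simp
  rw [hn2]
  ring

lemma measurable_angular (v : ℂ → ℝ) (c : ℂ) (s : ℝ) : Measurable (angular v c s) := by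
  have hm := (Potential.measurable_grad v).comp (continuous_circleMap c s).measurable
  unfold angular dot
  exact ((Complex.measurable_re.comp hm).mul (Complex.continuous_re.comp
    (((continuous_circleMap c s).sub continuous_const).mul continuous_const)).measurable).add
    ((Complex.measurable_im.comp hm).mul (Complex.continuous_im.comp
    (((continuous_circleMap c s).sub continuous_const).mul continuous_const)).measurable)

/-- On almost every circle the energy is integrable. -/
lemma Pot.ae_circle_integrable (h : Pot v K) (c : ℂ) :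
    ∀ᵐ s, s ∈ Ioi (0 : ℝ) → ∀ a b,
      IntervalIntegrable (fun θ => ‖grad v (circleMap c s θ)‖ ^ 2) volume a b := by
  have hcirc : ∀ r : ℕ, ∀ᵐ s, s ∈ Ioo (0 : ℝ) r →
      IntervalIntegrable (fun θ => ‖grad v (circleMap c s θ)‖ ^ 2) volume (-π) π := by
    intro r
    have := ae_integrableOn_circle ((integrable_indicator_iff measurableSet_ball).2
      (h.integrableOn_energy c r)) c
    rw [ae_restrict_iff' measurableSet_Ioi] at this
    filter_upwards [this] with s hs hsr
    refine (hs hsr.1).congr_ae (Eventually.of_forall fun θ => ?_)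
    refine indicator_of_mem ?_ _
    simp [circleMap, abs_of_pos hsr.1, hsr.2]
  filter_upwards [ae_all_iff.2 hcirc] with s hsi hs0 a b
  obtain ⟨n, hn⟩ := exists_nat_gt s
  have hep : Function.Periodic (fun θ => ‖grad v (circleMap c s θ)‖ ^ 2) (2 * π) := fun θ => by
    simp only [(periodic_circleMap c s) θ]
  refine hep.intervalIntegrable two_pi_pos.ne' (t := -π) ?_ a b
  rw [show -π + 2 * π = π by ring]
  exact hsi n ⟨hs0, hn⟩

lemma intervalIntegrable_angular_sq {v : ℂ → ℝ} {c : ℂ} {s : ℝ} (hs : 0 < s) {a b : ℝ}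
    (he : IntervalIntegrable (fun θ => ‖grad v (circleMap c s θ)‖ ^ 2) volume a b) :
    IntervalIntegrable (fun θ => angular v c s θ ^ 2) volume a b :=
  (he.const_mul (s ^ 2)).mono_fun' ((measurable_angular v c s).pow_const 2).aestronglyMeasurable
    (Eventually.of_forall fun θ => by
      simp only [Real.norm_eq_abs, abs_of_nonneg (sq_nonneg (angular v c s θ))]
      nlinarith [angular_sq_add v c hs θ,
        mul_nonneg (sq_nonneg s) (sq_nonneg (radial v c (circleMap c s θ)))])

lemma intervalIntegrable_radial_sq {v : ℂ → ℝ} {c : ℂ} {s a b : ℝ}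
    (he : IntervalIntegrable (fun θ => ‖grad v (circleMap c s θ)‖ ^ 2) volume a b) :
    IntervalIntegrable (fun θ => radial v c (circleMap c s θ) ^ 2) volume a b :=
  he.mono_fun'
    (((measurable_radial v c).comp (continuous_circleMap c s).measurable).pow_const 2
      ).aestronglyMeasurable
    (Eventually.of_forall fun θ => by
      simp only [Real.norm_eq_abs, abs_of_nonneg (sq_nonneg (radial v c (circleMap c s θ)))]
      exact sq_le_sq.2 (by rw [abs_norm]; exact abs_radial_le v c _))

/-- **The energy is at most the radius times the energy on the circle**, when the circles meet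
`K`. -/
theorem Pot.dissip_le (h : Pot v K) {c : ℂ} (hc : ∀ s : ℝ, 0 < s → ∃ z ∈ K, dist z c = s) :
    ∀ᵐ s, s ∈ Ioi (0 : ℝ) → dissip v c s ≤ s * circ (fun y => ‖grad v y‖ ^ 2) c s := by
  filter_upwards [h.dissip_eq_boundary c, h.ae_circle_integrable c] with s hs heall hs0
  replace heall := heall hs0
  have hs0' : 0 < s := hs0
  rw [hs hs0]
  set z : ℝ → ℂ := circleMap c s with hz
  set f : ℝ → ℝ := fun θ => v (z θ) with hf
  set g : ℝ → ℝ := fun θ => angular v c s θ with hg
  set ρ : ℝ → ℝ := fun θ => radial v c (z θ) with hρ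
  set e : ℝ → ℝ := fun θ => ‖grad v (z θ)‖ ^ 2 with he
  have hfc : Continuous f := h.cont.comp (continuous_circleMap c s)
  have hper : Function.Periodic z (2 * π) := periodic_circleMap c s
  have hsplit : ∀ θ, g θ ^ 2 + s ^ 2 * ρ θ ^ 2 = s ^ 2 * e θ := angular_sq_add v c hs0'
  have hmg : Measurable g := measurable_angular v c s
  have hmρ : Measurable ρ := (measurable_radial v c).comp (continuous_circleMap c s).measurable
  have hgsq : ∀ a b, IntervalIntegrable (fun θ => g θ ^ 2) volume a b := fun a b =>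
    intervalIntegrable_angular_sq hs0' (heall a b)
  have hρsq : ∀ a b, IntervalIntegrable (fun θ => ρ θ ^ 2) volume a b := fun a b =>
    intervalIntegrable_radial_sq (heall a b)
  obtain ⟨θ₀, hθ₀⟩ : ∃ θ, f θ = 0 := by
    obtain ⟨w, hw, hws⟩ := hc s hs0
    have hwr : w ∈ range z := by
      rw [hz, range_circleMap, mem_sphere, hws, abs_of_pos hs0']
    obtain ⟨θ, hθ⟩ := hwr
    exact ⟨θ, by simp [hf, hθ, h.zero w hw]⟩
  have hW := wirtinger_circle (g := g) hfc (fun θ => by simp only [hf, hper θ])
    (angular_periodic v c s) hθ₀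
    (fun θ hθ => circle_hasDerivAt h c s θ fun hK => hθ (h.zero _ hK))
    (fun a => ((intervalIntegrable_iff_integrableOn_Ioo_of_le (by linarith [pi_pos])).1
      (hgsq a _)).mono_set inter_subset_left)
  have hpi : -π ≤ π := by linarith [pi_pos]
  have hind : IntervalIntegrable ({θ | f θ ≠ 0}.indicator fun θ => g θ ^ 2) volume (-π) π :=
    (hgsq (-π) π).mono_fun' (((hmg.pow_const 2).indicator
      (isOpen_ne.preimage hfc).measurableSet)).aestronglyMeasurable
      (Eventually.of_forall fun θ => by
        by_cases hθ : θ ∈ {θ | f θ ≠ 0} <;> simp [hθ, sq_nonneg])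
  have hfρ : IntervalIntegrable (fun θ => f θ * ρ θ) volume (-π) π := by
    refine (((hρsq (-π) π).add ((hfc.pow 2).intervalIntegrable _ _))).mono_fun'
      (hfc.measurable.mul hmρ).aestronglyMeasurable (Eventually.of_forall fun θ => ?_)
    simp only [Real.norm_eq_abs, Pi.pow_apply, abs_mul]
    nlinarith [sq_nonneg (|f θ| - |ρ θ|), sq_abs (f θ), sq_abs (ρ θ)]
  have i2 : IntervalIntegrable (fun θ => f θ ^ 2 / (4 * s)) volume (-π) π :=
    ((hfc.pow 2).div_const _).intervalIntegrable _ _
  have hle : ∫ θ in -π..π, f θ * ρ θ ≤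
      ∫ θ in -π..π, (f θ ^ 2 / (4 * s) + s * ρ θ ^ 2) :=
    intervalIntegral.integral_mono_on hpi hfρ (i2.add ((hρsq _ _).const_mul s)) fun θ _ => by
      rw [div_add' _ _ _ (by positivity), le_div_iff₀ (by positivity)]
      nlinarith [sq_nonneg (f θ - 2 * s * ρ θ)]
  rw [intervalIntegral.integral_add i2 ((hρsq _ _).const_mul s),
    intervalIntegral.integral_div] at hle
  have hfin : ∫ θ in -π..π, (({θ | f θ ≠ 0}.indicator (fun θ => g θ ^ 2) θ) / s + s * ρ θ ^ 2) ≤
      ∫ θ in -π..π, s * e θ :=
    intervalIntegral.integral_mono_on hpi ((hind.div_const s).add ((hρsq _ _).const_mul s))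
      ((heall _ _).const_mul s) fun θ _ => by
        have : {θ | f θ ≠ 0}.indicator (fun θ => g θ ^ 2) θ ≤ g θ ^ 2 := by
          by_cases hθ : θ ∈ {θ | f θ ≠ 0} <;> simp [hθ, sq_nonneg]
        rw [div_add' _ _ _ hs0'.ne', div_le_iff₀ hs0']
        nlinarith [hsplit θ]
  rw [intervalIntegral.integral_add (hind.div_const s) ((hρsq _ _).const_mul s),
    intervalIntegral.integral_div, intervalIntegral.integral_const_mul s e] at hfin
  have hW' : (∫ θ in -π..π, f θ ^ 2) / (4 * s) ≤
      (∫ θ in -π..π, {θ | f θ ≠ 0}.indicator (fun θ => g θ ^ 2) θ) / s := by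
    rw [div_le_div_iff₀ (by positivity) hs0']
    nlinarith [hW]
  change s * ∫ θ in -π..π, f θ * ρ θ ≤ s * (s * ∫ θ in -π..π, e θ)
  exact mul_le_mul_of_nonneg_left (by linarith) hs0'.le

/-- **Monotonicity.** -/
theorem Pot.monotone_dissip (h : Pot v K) {c : ℂ}
    (hc : ∀ s : ℝ, 0 < s → ∃ z ∈ K, dist z c = s) :
    MonotoneOn (fun r => dissip v c r / r) (Ioi 0) := by
  intro a ha b hb hab
  have ha0 : (0 : ℝ) < a := ha
  set Fe := circ (fun y => ‖grad v y‖ ^ 2) c
  set Φ : ℝ → ℝ := fun s => ∫ t in 0..s, Fe t with hΦ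
  simp only [h.dissip_eq c ha0.le, h.dissip_eq c (le_of_lt hb)]
  have hsub : uIcc a b ⊆ Ioi (0 : ℝ) := by
    rw [uIcc_of_le hab]; exact fun s hs => ha0.trans_le hs.1
  have hsub' : uIcc a b ⊆ uIcc 0 b := by
    rw [uIcc_of_le hab, uIcc_of_le (le_of_lt hb)]; exact Icc_subset_Icc ha0.le le_rfl
  have hΦac : AbsolutelyContinuousOnInterval Φ a b :=
    ((h.intervalIntegrable_energy c (le_of_lt hb)).absolutelyContinuousOnInterval_intervalIntegral
      (c := 0) left_mem_uIcc).mono hsub'
  have hinv : AbsolutelyContinuousOnInterval (fun s : ℝ => s⁻¹) a b :=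
    (contDiffOn_inv (n := 1) ℝ).mono (fun s hs => (hsub hs).ne')
      |>.absolutelyContinuousOnInterval
  have key := hinv.integral_deriv_mul_eq_sub hΦac
  have hpos : 0 ≤ ∫ x in a..b, deriv (fun s : ℝ => s⁻¹) x * Φ x + x⁻¹ * deriv Φ x := by
    refine intervalIntegral.integral_nonneg_of_ae_restrict hab ?_
    rw [EventuallyLE, ae_restrict_iff' measurableSet_Icc]
    filter_upwards [h.dissip_le hc,
      (h.intervalIntegrable_energy c (le_of_lt hb)).ae_hasDerivAt_integral] with x hx hd hxI
    have hxU : x ∈ uIcc a b := uIcc_of_le hab ▸ hxI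
    have hx0 : 0 < x := hsub hxU
    have h1 := hx hx0
    rw [h.dissip_eq c hx0.le] at h1
    rw [(hd (hsub' hxU) 0 left_mem_uIcc).deriv, deriv_inv, Pi.zero_apply]
    change 0 ≤ -(x ^ 2)⁻¹ * Φ x + x⁻¹ * Fe x
    rw [show -(x ^ 2)⁻¹ * Φ x + x⁻¹ * Fe x = (x * Fe x - Φ x) / x ^ 2 by field_simp; ring]
    exact div_nonneg (by linarith) (sq_nonneg _)
  rw [key] at hpos
  have e : ∀ s, s⁻¹ * Φ s = Φ s / s := fun s => inv_mul_eq_div _ _
  simp only [e] at hpos
  linarith

/-- On an unbounded connected set every circle round a point of it meets it. -/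
lemma exists_dist_eq {C : Set ℂ} (hC : IsPreconnected C) (hub : ¬ Bornology.IsBounded C) {c : ℂ}
    (hc : c ∈ C) {s : ℝ} (hs : 0 < s) : ∃ z ∈ C, dist z c = s := by
  obtain ⟨y, hy, hys⟩ : ∃ y ∈ C, s ≤ dist y c := by
    by_contra hn
    push Not at hn
    exact hub (isBounded_ball.subset fun y hy => mem_ball.2 (hn y hy))
  exact hC.intermediate_value hc hy (by fun_prop) ⟨by simpa using hs.le, hys⟩

end Vale.Agent.P128.Classify
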